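import Vale.Agent.P141.PL.H560.Transfer3
import Vale.Agent.P141.PL.H321.Roles
import Vale.Agent.P141.PL.H314.Bridge
import Vale.Agent.P141.PL.H315.NodeRole

/-!
# The cost of a one-dimensional atom at the nodes, four roles
-/

namespace Vale.Agent.P141.PL.H560

open Finset Vale.Agent.P141.PL
open Vale.Agent.P141.PL.H321 (t12 t23 u12 u23)
open Vale.Agent.P141.PL.H314 (nd)
open Vale.Agent.P141.PL.H315 (put)

noncomputable section

/-! ### Transpositions of a push-forward -/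

theorem pf_t12 (d : Pt) (K : ℕ) (p : Pt) (u : H315.Tri) :
    pf d K p u = pf (t12 d) K (t12 p) (u12 u) := by
  funext s
  unfold pf
  rw [← H321.sum_cube_t12 K p (fun y => if el (t12 d) y = s then H315.atm (u12 u) y else 0)]
  refine sum_congr rfl fun q _ => ?_
  have e1 : el (t12 d) (t12 q) = el d q := by unfold el t12; ring
  have e2 : H315.atm (u12 u) (t12 q) = H315.atm u q := by
    rw [← H321.atm_t12, H321.t12_t12]
  rw [e1, e2]

theorem pf_t23 (d : Pt) (K : ℕ) (p : Pt) (u : H315.Tri) :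
    pf d K p u = pf (t23 d) K (t23 p) (u23 u) := by
  funext s
  unfold pf
  rw [← H321.sum_cube_t23 K p (fun y => if el (t23 d) y = s then H315.atm (u23 u) y else 0)]
  refine sum_congr rfl fun q _ => ?_
  have e1 : el (t23 d) (t23 q) = el d q := by unfold el t23; ring
  have e2 : H315.atm (u23 u) (t23 q) = H315.atm u q := by
    rw [← H321.atm_t23, H321.t23_t23]
  rw [e1, e2]

theorem wt_t12 (δ e : ℝ) (K : ℕ) (p : Pt) (u : H315.Tri) :
    H315.wt δ e (H315.cube3 K (t12 p)) (u12 u) = H315.wt δ e (H315.cube3 K p) u := by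
  rw [H315.wt_eq, H315.wt_eq, H315.card_cube3, H315.card_cube3, H321.wN_t12]

theorem wt_t23 (δ e : ℝ) (K : ℕ) (p : Pt) (u : H315.Tri) :
    H315.wt δ e (H315.cube3 K (t23 p)) (u23 u) = H315.wt δ e (H315.cube3 K p) u := by
  rw [H315.wt_eq, H315.wt_eq, H315.card_cube3, H315.card_cube3, H321.wN_t23]

/-! ### The linear forms of the four faces in the position of face 0 -/

def c0 : LF := ⟨1, 2, 3, rfl⟩
def c1 : LF := ⟨-1, 1, 2, rfl⟩
def c2 : LF := ⟨-1, -2, 1, rfl⟩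
def c3 : LF := ⟨-1, -3, -2, rfl⟩

/-- The companions in the position of role `0`. -/
def cmp (i : Fin 4) (G : Fin 4 → Pt → ℝ) : (Pt → ℝ) × (Pt → ℝ) × (Pt → ℝ) :=
  match i with
  | 0 => (G 1, G 2, G 3)
  | 1 => (G 0, s12 (G 2), s12 (G 3))
  | 2 => (s12 (G 1), s12 (G 0), s23 (s12 (s23 (G 3))))
  | 3 => (s12 (s23 (G 2)), s23 (s12 (s23 (G 0))), s23 (s12 (s23 (G 1))))

theorem inv0 (g : Fin 4 → ℤ → ℝ) :
    Inv c0 (cmp 0 fun j => lift j (g j)).1 (cmp 0 fun j => lift j (g j)).2.1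
      (cmp 0 fun j => lift j (g j)).2.2 := by
  constructor <;> intro a b x y z <;> simp only [cmp, lift, el, fc, h0, h1, c0] <;> congr 1 <;> ring

theorem inv1 (g : Fin 4 → ℤ → ℝ) :
    Inv c1 (cmp 1 fun j => lift j (g j)).1 (cmp 1 fun j => lift j (g j)).2.1
      (cmp 1 fun j => lift j (g j)).2.2 := by
  constructor <;> intro a b x y z <;> simp only [cmp, lift, el, fc, h0, h1, c1, s12] <;>
    congr 1 <;> ring

theorem inv2 (g : Fin 4 → ℤ → ℝ) :
    Inv c2 (cmp 2 fun j => lift j (g j)).1 (cmp 2 fun j => lift j (g j)).2.1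
      (cmp 2 fun j => lift j (g j)).2.2 := by
  constructor <;> intro a b x y z <;> simp only [cmp, lift, el, fc, h0, h1, c2, s12, s23] <;>
    congr 1 <;> ring

theorem inv3 (g : Fin 4 → ℤ → ℝ) :
    Inv c3 (cmp 3 fun j => lift j (g j)).1 (cmp 3 fun j => lift j (g j)).2.1
      (cmp 3 fun j => lift j (g j)).2.2 := by
  constructor <;> intro a b x y z <;> simp only [cmp, lift, el, fc, h0, h1, c3, s12, s23] <;>
    congr 1 <;> ring

theorem fin4 (i : Fin 4) : i = 0 ∨ i = 1 ∨ i = 2 ∨ i = 3 := by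
  fin_cases i <;> simp

/-- The sum over the nodes in the form with boxes. -/
theorem node_sum_eq (o : ℤ) (h : ℕ → Fin 4 → ℤ → ℝ) (i : Fin 4) (φ : ℤ → ℝ)
    (𝒩 : Finset (ℕ × ℤ)) (h𝒩 : ∀ N ∈ 𝒩, 1 ≤ N.1) :
    ∑ N ∈ 𝒩, |nd o N.1 N.2 (put i (h N.1) φ)| = ∑ N ∈ 𝒩, (8 ^ N.1 : ℝ)⁻¹ *
      |loc N.1 (o - 2 - N.2, N.2, 0, 0) (lift 0 (put i (h N.1) φ 0))
        (lift 1 (put i (h N.1) φ 1)) (lift 2 (put i (h N.1) φ 2))
        (lift 3 (put i (h N.1) φ 3))| := by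
  refine sum_congr rfl fun N hN => ?_
  rw [H314.nd_eq (h𝒩 N hN), abs_mul, abs_of_nonneg (by positivity)]

section roles

variable {K : ℕ} {o : ℤ} {δ e P : ℝ} (hδ : 0 ≤ δ) (h0 : 0 ≤ e) (h1' : e ≤ 1) (hP : 0 ≤ P)
  (h : ℕ → Fin 4 → ℤ → ℝ)
include hδ h0 h1' hP

theorem node_cost0
    (hcost : CostAt o K δ e P (fun k => (cmp 0 fun j => lift j (h k j)).1)
      (fun k => (cmp 0 fun j => lift j (h k j)).2.1)
      (fun k => (cmp 0 fun j => lift j (h k j)).2.2))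
    (p : Pt) (u : H315.Tri) (𝒩 : Finset (ℕ × ℤ)) (h𝒩 : ∀ N ∈ 𝒩, 1 ≤ N.1 ∧ N.1 ≤ K) :
    ∑ N ∈ 𝒩, |nd o N.1 N.2 (put 0 (h N.1) (pf (fc 0) K p u))| ≤
      8 * (P * H315.wt δ e (H315.cube3 K p) u) := by
  rw [node_sum_eq o h 0 _ 𝒩 fun N hN => (h𝒩 N hN).1]
  refine le_trans (le_of_eq ?_) (transfer0' c0 hδ h0 h1' hP (fun k => inv0 (h k)) hcost p u 𝒩 h𝒩
    id (fun _ => 0) (fun _ => 0) Function.injective_id (fun v => (o - 2 - v, v, 0, 0)) ?_)
  · refine sum_congr rfl fun N _ => ?_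
    have e0 : put 0 (h N.1) (pf (fc 0) K p u) 0 = pf (fc 0) K p u := rfl
    have e1 : put 0 (h N.1) (pf (fc 0) K p u) 1 = h N.1 1 := rfl
    have e2 : put 0 (h N.1) (pf (fc 0) K p u) 2 = h N.1 2 := rfl
    have e3 : put 0 (h N.1) (pf (fc 0) K p u) 3 = h N.1 3 := rfl
    rw [e0, e1, e2, e3]
    rfl
  · intro v; unfold bxm; simp [H560.h0, H560.h1, c0]

theorem node_cost1
    (hcost : CostAt o K δ e P (fun k => (cmp 1 fun j => lift j (h k j)).1)
      (fun k => (cmp 1 fun j => lift j (h k j)).2.1)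
      (fun k => (cmp 1 fun j => lift j (h k j)).2.2))
    (p : Pt) (u : H315.Tri) (𝒩 : Finset (ℕ × ℤ)) (h𝒩 : ∀ N ∈ 𝒩, 1 ≤ N.1 ∧ N.1 ≤ K) :
    ∑ N ∈ 𝒩, |nd o N.1 N.2 (put 1 (h N.1) (pf (fc 1) K p u))| ≤
      8 * (P * H315.wt δ e (H315.cube3 K p) u) := by
  rw [node_sum_eq o h 1 _ 𝒩 fun N hN => (h𝒩 N hN).1]
  refine le_trans (le_of_eq ?_) (transfer0' c1 hδ h0 h1' hP (fun k => inv1 (h k)) hcost p u 𝒩 h𝒩
    (fun v => o - 2 - v) (fun _ => 0) (fun _ => 0) (fun a b hab => by simpa using hab)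
    (fun v => (v, o - 2 - v, 0, 0)) ?_)
  · refine sum_congr rfl fun N _ => ?_
    have e0 : put 1 (h N.1) (pf (fc 1) K p u) 0 = h N.1 0 := rfl
    have e1 : put 1 (h N.1) (pf (fc 1) K p u) 1 = pf (fc 1) K p u := rfl
    have e2 : put 1 (h N.1) (pf (fc 1) K p u) 2 = h N.1 2 := rfl
    have e3 : put 1 (h N.1) (pf (fc 1) K p u) 3 = h N.1 3 := rfl
    rw [e0, e1, e2, e3, ← loc_swap01]
    rfl
  · intro v; unfold bxm; simp [H560.h0, H560.h1, c1]

theorem node_cost2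
    (hcost : CostAt o K δ e P (fun k => (cmp 2 fun j => lift j (h k j)).1)
      (fun k => (cmp 2 fun j => lift j (h k j)).2.1)
      (fun k => (cmp 2 fun j => lift j (h k j)).2.2))
    (p : Pt) (u : H315.Tri) (𝒩 : Finset (ℕ × ℤ)) (h𝒩 : ∀ N ∈ 𝒩, 1 ≤ N.1 ∧ N.1 ≤ K) :
    ∑ N ∈ 𝒩, |nd o N.1 N.2 (put 2 (h N.1) (pf (fc 2) K p u))| ≤
      8 * (P * H315.wt δ e (H315.cube3 K p) u) := by
  rw [node_sum_eq o h 2 _ 𝒩 fun N hN => (h𝒩 N hN).1, ← wt_t12]
  refine le_trans (le_of_eq ?_) (transfer0' c2 hδ h0 h1' hP (fun k => inv2 (h k)) hcost (t12 p)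
    (u12 u) 𝒩 h𝒩
    (fun v => 2 * (o - 2) - v) (fun v => o - 2 - v) (fun _ => 0) (fun a b hab => by simpa using hab)
    (fun v => (0, v, o - 2 - v, 0)) ?_)
  · have e : s12 (lift 2 (pf (fc 2) K p u)) =
        fun y => pf (c2.e, c2.d2, c2.d3) K (t12 p) (u12 u) (lf c2 y) := by
      rw [pf_t12 (fc 2) K p u]
      funext y
      have : el (fc 2) (y.2.1, y.1, y.2.2) = lf c2 y := by
        simp only [el, fc, lf, c2]; ring
      simp only [s12, lift]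
      rw [this]; rfl
    refine sum_congr rfl fun N _ => ?_
    have e0 : put 2 (h N.1) (pf (fc 2) K p u) 0 = h N.1 0 := rfl
    have e1 : put 2 (h N.1) (pf (fc 2) K p u) 1 = h N.1 1 := rfl
    have e2 : put 2 (h N.1) (pf (fc 2) K p u) 2 = pf (fc 2) K p u := rfl
    have e3 : put 2 (h N.1) (pf (fc 2) K p u) 3 = h N.1 3 := rfl
    rw [e0, e1, e2, e3, ← loc_swap12, ← loc_swap01, ← loc_swap12, e]
    rfl
  · intro v; unfold bxm; simp only [H560.h0, H560.h1, c2]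
    ext <;> simp <;> ring

theorem node_cost3
    (hcost : CostAt o K δ e P (fun k => (cmp 3 fun j => lift j (h k j)).1)
      (fun k => (cmp 3 fun j => lift j (h k j)).2.1)
      (fun k => (cmp 3 fun j => lift j (h k j)).2.2))
    (p : Pt) (u : H315.Tri) (𝒩 : Finset (ℕ × ℤ)) (h𝒩 : ∀ N ∈ 𝒩, 1 ≤ N.1 ∧ N.1 ≤ K) :
    ∑ N ∈ 𝒩, |nd o N.1 N.2 (put 3 (h N.1) (pf (fc 3) K p u))| ≤
      8 * (P * H315.wt δ e (H315.cube3 K p) u) := by
  rw [node_sum_eq o h 3 _ 𝒩 fun N hN => (h𝒩 N hN).1, ← wt_t23, ← wt_t12]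
  refine le_trans (le_of_eq ?_) (transfer0' c3 hδ h0 h1' hP (fun k => inv3 (h k)) hcost
    (t12 (t23 p)) (u12 (u23 u)) 𝒩 h𝒩
    (fun v => 3 * (o - 2) - v) (fun v => o - 2 - v) (fun v => v) (fun a b hab => by simpa using hab)
    (fun v => (0, 0, o - 2 - v, v)) ?_)
  · have e : s12 (s23 (lift 3 (pf (fc 3) K p u))) =
        fun y => pf (c3.e, c3.d2, c3.d3) K (t12 (t23 p)) (u12 (u23 u)) (lf c3 y) := by
      rw [pf_t23 (fc 3) K p u, pf_t12 (t23 (fc 3)) K (t23 p) (u23 u)]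
      funext y
      have : el (fc 3) (y.2.1, y.2.2, y.1) = lf c3 y := by
        simp only [el, fc, lf, c3]; ring
      simp only [s12, s23, lift]
      rw [this]; rfl
    refine sum_congr rfl fun N _ => ?_
    have e0 : put 3 (h N.1) (pf (fc 3) K p u) 0 = h N.1 0 := rfl
    have e1 : put 3 (h N.1) (pf (fc 3) K p u) 1 = h N.1 1 := rfl
    have e2 : put 3 (h N.1) (pf (fc 3) K p u) 2 = h N.1 2 := rfl
    have e3 : put 3 (h N.1) (pf (fc 3) K p u) 3 = pf (fc 3) K p u := rfl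
    rw [e0, e1, e2, e3, ← loc_swap23, ← loc_swap12, ← loc_swap01, ← loc_swap23, ← loc_swap12, e]
    rfl
  · intro v; unfold bxm; simp only [H560.h0, H560.h1, c3]
    ext <;> simp <;> ring

/-- **The cost of a one-dimensional atom at the nodes.**  `h k j` = companion of face `j` at the
scale `k`. -/
theorem node_cost (i : Fin 4)
    (hcost : CostAt o K δ e P (fun k => (cmp i fun j => lift j (h k j)).1)
      (fun k => (cmp i fun j => lift j (h k j)).2.1)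
      (fun k => (cmp i fun j => lift j (h k j)).2.2))
    (p : Pt) (u : H315.Tri) (𝒩 : Finset (ℕ × ℤ)) (h𝒩 : ∀ N ∈ 𝒩, 1 ≤ N.1 ∧ N.1 ≤ K) :
    ∑ N ∈ 𝒩, |nd o N.1 N.2 (put i (h N.1) (pf (fc i) K p u))| ≤
      8 * (P * H315.wt δ e (H315.cube3 K p) u) := by
  obtain rfl | rfl | rfl | rfl := fin4 i
  · exact node_cost0 hδ h0 h1' hP h hcost p u 𝒩 h𝒩
  · exact node_cost1 hδ h0 h1' hP h hcost p u 𝒩 h𝒩
  · exact node_cost2 hδ h0 h1' hP h hcost p u 𝒩 h𝒩
  · exact node_cost3 hδ h0 h1' hP h hcost p u 𝒩 h𝒩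

end roles

/-! ### From the normalised form -/

theorem cb_sum {K k : ℕ} (hk : k ≤ K) (M : Pt) (g : Pt → ℝ) :
    ∑ z ∈ cb K M, g (cx k z) = 8 ^ k * ∑ m ∈ cbs K M k, g m := by
  classical
  have hmap : ∀ z ∈ cb K M, cx k z ∈ cbs K M k := by
    intro z hz
    rw [mem_cb] at hz
    unfold cbs
    rw [← hz]
    simp only [mem_product, mem_iv, cx, ix_ix]
    rw [show k + (K - k) = K by omega]
    simp
  rw [← sum_fiberwise_of_maps_to hmap, mul_sum]
  refine sum_congr rfl fun m hm => ?_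
  have e1 : (cb K M).filter (fun z => cx k z = m) = cb k m := by
    ext z
    rw [mem_filter, mem_cb, mem_cb]
    constructor
    · exact fun h => h.2
    · intro h
      refine ⟨?_, h⟩
      unfold cbs at hm
      simp only [mem_product, mem_iv] at hm
      rw [← h] at hm
      simp only [cx, ix_ix] at hm
      rw [show k + (K - k) = K by omega] at hm
      unfold cx
      exact Prod.ext hm.1 (Prod.ext hm.2.1 hm.2.2)
  rw [sum_congr rfl (g := fun _ => g m) (by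
    intro z hz
    rw [mem_filter] at hz
    rw [hz.2]), e1, sum_const, card_cb, nsmul_eq_mul]
  push_cast; ring

/-- The cost statement in the form with indices from the normalised form. -/
theorem costAt_of_L0 {K : ℕ} {o : ℤ} {δ e P : ℝ} {F1 F2 F3 : ℕ → Pt → ℝ}
    (h : ∀ (x : Pt) (u : H315.Tri), ∑ k ∈ Icc 1 K, ∑ z ∈ H315.cube3 K x,
      |L0 o k z u (F1 k) (F2 k) (F3 k)| ≤ P * H315.wt δ e (H315.cube3 K x) u) :
    CostAt o K δ e P F1 F2 F3 := by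
  intro x u
  refine le_trans (le_of_eq (sum_congr rfl fun k hk => ?_)) (h x u)
  rw [mem_Icc] at hk
  have e1 : ∀ z : Pt, |L0 o k z u (F1 k) (F2 k) (F3 k)| = (16 ^ k : ℝ)⁻¹ *
      |loc k (bx0 o (cx k z)) (H315.atm u) (F1 k) (F2 k) (F3 k)| := by
    intro z
    unfold L0
    rw [abs_mul, abs_of_nonneg (by positivity)]
    congr 3
    unfold bo0 bx0 cx
    ext <;> simp
    ring
  simp only [e1]
  rw [cube3_eq, ← mul_sum, cb_sum hk.2 (cx K x)
    (fun m => |loc k (bx0 o m) (H315.atm u) (F1 k) (F2 k) (F3 k)|), ← mul_assoc]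
  congr 1
  rw [← div_eq_inv_mul, eq_div_iff (by positivity), show (16 : ℝ) = 2 * 8 by norm_num, mul_pow]
  field_simp

/-- **The cost at the nodes from the cost theorem.** -/
theorem node_cost_of_StCost (hst : StCost) : ∃ C : ℝ, ∃ q : ℕ, 0 ≤ C ∧ ∀ n : ℕ, 1 ≤ n →
    ∀ (δ Λ : ℝ), 0 < δ → 1 ≤ Λ → ∀ o : ℤ, |o| = 1 → ∀ (h : ℕ → Fin 4 → ℤ → ℝ) (i : Fin 4),
    (∀ j, j ≠ i → Comp n (ee n) δ Λ (fun k => lift j (h k j))) →
    ∀ K ≤ n, ∀ (p : Pt) (u : H315.Tri) (𝒩 : Finset (ℕ × ℤ)), (∀ N ∈ 𝒩, 1 ≤ N.1 ∧ N.1 ≤ K) →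
      ∑ N ∈ 𝒩, |nd o N.1 N.2 (put i (h N.1) (pf (fc i) K p u))| ≤
        C * ((2 + Real.log n) * Λ) ^ q * H315.wt δ (ee n) (H315.cube3 K p) u := by
  obtain ⟨C, q, hC, hst⟩ := hst
  refine ⟨8 * C, q, by positivity, fun n hn δ Λ hδ hΛ o ho h i hcomp K hK p u 𝒩 h𝒩 => ?_⟩
  have hlog : 0 ≤ Real.log n := Real.log_natCast_nonneg n
  have he0 : 0 ≤ ee n := by unfold ee; positivity
  have he1 : ee n ≤ 1 := by
    unfold ee
    exact inv_le_one_of_one_le₀ (by linarith)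
  have hP : 0 ≤ C * ((2 + Real.log n) * Λ) ^ q := by positivity
  have key : CostAt o K δ (ee n) (C * ((2 + Real.log n) * Λ) ^ q)
      (fun k => (cmp i fun j => lift j (h k j)).1)
      (fun k => (cmp i fun j => lift j (h k j)).2.1)
      (fun k => (cmp i fun j => lift j (h k j)).2.2) := by
    refine costAt_of_L0 fun x u => ?_
    obtain rfl | rfl | rfl | rfl := fin4 i
    · exact hst n hn δ Λ hδ hΛ o ho _ _ _ (hcomp 1 (by decide)) (hcomp 2 (by decide))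
        (hcomp 3 (by decide)) K hK x u
    · exact hst n hn δ Λ hδ hΛ o ho _ _ _ (hcomp 0 (by decide)) (H321.Comp.s12 (hcomp 2 (by decide)))
        (H321.Comp.s12 (hcomp 3 (by decide))) K hK x u
    · exact hst n hn δ Λ hδ hΛ o ho _ _ _ (H321.Comp.s12 (hcomp 1 (by decide)))
        (H321.Comp.s12 (hcomp 0 (by decide)))
        (H321.Comp.s23 (H321.Comp.s12 (H321.Comp.s23 (hcomp 3 (by decide))))) K hK x u
    · exact hst n hn δ Λ hδ hΛ o ho _ _ _ (H321.Comp.s12 (H321.Comp.s23 (hcomp 2 (by decide))))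
        (H321.Comp.s23 (H321.Comp.s12 (H321.Comp.s23 (hcomp 0 (by decide)))))
        (H321.Comp.s23 (H321.Comp.s12 (H321.Comp.s23 (hcomp 1 (by decide))))) K hK x u
  have := node_cost hδ.le he0 he1 hP h i key p u 𝒩 h𝒩
  calc _ ≤ _ := this
    _ = _ := by ring

end

end Vale.Agent.P141.PL.H560
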