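import Vale.Agent.P141.PL.H560.NodeCost
import Vale.Agent.P141.PL.H95.Root

/-!
# The cost statement at the nodes, in the form of the root assembly
-/

namespace Vale.Agent.P141.PL.H560

open Finset Vale.Agent.P141.PL
open Vale.Agent.P141.PL.H314 (nd)
open Vale.Agent.P141.PL.H315 (put)

theorem a1_eq_pf (c : Pt) (l : ℕ) (p : Pt) (u : H315.Tri) :
    H318.a1 c l (p, u) = pf c l p u := rfl

/-- **The cost at the nodes from the cost theorem of role 0.** -/
theorem stNode_of_stCost (hst : StCost) : H95.StNode := by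
  obtain ⟨C, q, hC, h⟩ := node_cost_of_StCost hst
  refine ⟨C, q, hC, fun n hn δ Λ hδ hΛ o ho i f hcomp l hl p u 𝒩 h𝒩 => ?_⟩
  have ho' : |o| = 1 := by
    rcases ho with rfl | rfl <;> simp
  exact h n hn δ Λ hδ hΛ o ho' f i hcomp l hl p u 𝒩 h𝒩

end Vale.Agent.P141.PL.H560
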