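import Vale.Agent.P141.PL.Defs

/-!
# Transfer of the one-dimensional cost of an atom to the cost of product functions

Role 0.  The four-linear form has the two-dimensional lattice of invariances
`(h0 a b, h1 a b, a, b)`; the function of face `0` is `A ∘ lf`, `lf p = ε p₁ + d₂ p₂ + d₃ p₃`,
`ε = ± 1`, and `A` is the push-forward under `lf` of a function `φ` living on a cube of scale `K`.
-/

namespace Vale.Agent.P141.PL.H560

open Finset

noncomputable section

/-- The parameters of the linear form of face `0`. -/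
structure LF where
  e : ℤ
  d2 : ℤ
  d3 : ℤ
  he : e * e = 1

variable (c : LF)

/-- The linear form of face `0`. -/
def lf (p : Pt) : ℤ := c.e * p.1 + c.d2 * p.2.1 + c.d3 * p.2.2

/-- Component `0` of the lattice of invariances. -/
def h0 (a b : ℤ) : ℤ := c.e * (c.d2 * a + c.d3 * b) - a - b

/-- Component `1` of the lattice of invariances. -/
def h1 (a b : ℤ) : ℤ := -(c.e * (c.d2 * a + c.d3 * b))

/-- Translation of a point of face `0`. -/
def sh (a b : ℤ) (p : Pt) : Pt := (p.1 + h1 c a b, p.2.1 + a, p.2.2 + b)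

theorem lf_sh (a b : ℤ) (p : Pt) : lf c (sh c a b p) = lf c p := by
  have h := c.he
  simp only [lf, sh, h1]
  linear_combination (-(c.d2 * a + c.d3 * b)) * h

/-- The push-forward under `lf` of `φ` restricted to the cube of scale `K` with indices `B`. -/
def push (K : ℕ) (B : Pt) (φ : Pt → ℝ) (s : ℤ) : ℝ :=
  ∑ y ∈ cb K B, if lf c y = s then φ y else 0

/-- restriction to a cube -/
def cut (K : ℕ) (B : Pt) (φ : Pt → ℝ) (y : Pt) : ℝ := by
  classical exact if y ∈ cb K B then φ y else 0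

theorem cut_of_mem {K : ℕ} {B : Pt} {φ : Pt → ℝ} {y : Pt} (h : y ∈ cb K B) :
    cut K B φ y = φ y := by
  unfold cut; rw [if_pos h]

theorem cut_of_not_mem {K : ℕ} {B : Pt} {φ : Pt → ℝ} {y : Pt} (h : y ∉ cb K B) :
    cut K B φ y = 0 := by
  unfold cut; rw [if_neg h]

theorem mem_iv_bounds {k : ℕ} {m x : ℤ} (h : x ∈ iv k m) : 2 ^ k * m ≤ x ∧ x < 2 ^ k * m + 2 ^ k :=
  Finset.mem_Ico.mp h

/-- The range of the translations. -/
def T (K : ℕ) : Finset (ℤ × ℤ) := Ioo (-2 ^ K) (2 ^ K) ×ˢ Ioo (-2 ^ K) (2 ^ K)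

theorem card_T_le (K : ℕ) : ((T K).card : ℝ) ≤ 4 * 4 ^ K := by
  unfold T
  rw [card_product]
  have h : (Ioo (-2 ^ K : ℤ) (2 ^ K)).card ≤ 2 * 2 ^ K := by
    rw [Int.card_Ioo]
    have : (2 ^ K - -2 ^ K - 1 : ℤ) ≤ ((2 * 2 ^ K : ℕ) : ℤ) := by push_cast; linarith
    omega
  have h2 : ((Ioo (-2 ^ K : ℤ) (2 ^ K)).card : ℝ) ≤ 2 * 2 ^ K := by exact_mod_cast h
  push_cast
  calc ((Ioo (-2 ^ K : ℤ) (2 ^ K)).card : ℝ) * ((Ioo (-2 ^ K : ℤ) (2 ^ K)).card : ℝ)
      ≤ (2 * 2 ^ K) * (2 * 2 ^ K) := mul_le_mul h2 h2 (Nat.cast_nonneg _) (by positivity)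
    _ = 4 * 4 ^ K := by rw [show (4 : ℝ) = 2 * 2 by norm_num, mul_pow]; ring

/-- **Fibre formula**: on the slab over the cube the push-forward is the sum of the translates. -/
theorem push_eq (K : ℕ) (B : Pt) (φ : Pt → ℝ) (p : Pt) (h2 : p.2.1 ∈ iv K B.2.1)
    (h3 : p.2.2 ∈ iv K B.2.2) :
    push c K B φ (lf c p) = ∑ q ∈ T K, cut K B φ (sh c q.1 q.2 p) := by
  classical
  unfold push
  rw [← Finset.sum_filter]
  have hb2 := mem_iv_bounds h2
  have hb3 := mem_iv_bounds h3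
  refine Finset.sum_of_injOn (fun y : Pt => ((y.2.1 - p.2.1, y.2.2 - p.2.2) : ℤ × ℤ)) ?_ ?_ ?_ ?_
  · intro y hy z hz hyz
    simp only [coe_filter, Set.mem_ofPred_eq] at hy hz
    simp only [Prod.mk.injEq] at hyz
    obtain ⟨e2, e3⟩ := hyz
    have e2' : y.2.1 = z.2.1 := by linarith
    have e3' : y.2.2 = z.2.2 := by linarith
    have e1 : c.e * y.1 = c.e * z.1 := by
      have := hy.2.trans hz.2.symm
      unfold lf at this
      rw [e2', e3'] at this
      linarith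
    have e1' : y.1 = z.1 := by
      have h := c.he
      calc y.1 = (c.e * c.e) * y.1 := by rw [h, one_mul]
        _ = c.e * (c.e * y.1) := by ring
        _ = c.e * (c.e * z.1) := by rw [e1]
        _ = (c.e * c.e) * z.1 := by ring
        _ = z.1 := by rw [h, one_mul]
    exact Prod.ext e1' (Prod.ext e2' e3')
  · intro y hy
    simp only [coe_filter, Set.mem_ofPred_eq] at hy
    have hy' : y ∈ cb K B := hy.1
    unfold cb at hy'
    rw [mem_product, mem_product] at hy'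
    have c2 := mem_iv_bounds hy'.2.1
    have c3 := mem_iv_bounds hy'.2.2
    simp only [T, coe_product, Set.mem_prod, coe_Ioo, Set.mem_Ioo]
    refine ⟨⟨?_, ?_⟩, ⟨?_, ?_⟩⟩ <;> linarith
  · intro q hq hnot
    by_contra hne
    apply hnot
    have hmem : sh c q.1 q.2 p ∈ cb K B := by
      by_contra hm
      exact hne (cut_of_not_mem hm)
    refine ⟨sh c q.1 q.2 p, ?_, ?_⟩
    · simp only [coe_filter, Set.mem_ofPred_eq]
      exact ⟨hmem, lf_sh c _ _ _⟩
    · simp only [sh]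
      ext <;> simp
  · intro y hy
    rw [Finset.mem_filter] at hy
    have e : sh c (y.2.1 - p.2.1) (y.2.2 - p.2.2) p = y := by
      have h := hy.2
      unfold lf at h
      simp only [sh, h1]
      refine Prod.ext ?_ (Prod.ext ?_ ?_)
      · show p.1 + -(c.e * (c.d2 * (y.2.1 - p.2.1) + c.d3 * (y.2.2 - p.2.2))) = y.1
        have h' := c.he
        linear_combination (-c.e) * h + (y.1 - p.1) * h'
      · show p.2.1 + (y.2.1 - p.2.1) = y.2.1
        ring
      · show p.2.2 + (y.2.2 - p.2.2) = y.2.2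
        ring
    show φ y = cut K B φ (sh c (y.2.1 - p.2.1) (y.2.2 - p.2.2) p)
    rw [e, cut_of_mem hy.1]

/-! ### Invariance of the local form -/

theorem sum_iv_add (k : ℕ) (m h : ℤ) (f : ℤ → ℝ) :
    ∑ x ∈ iv k (m + h), f x = ∑ x ∈ iv k m, f (x + 2 ^ k * h) := by
  unfold iv
  have : Ico (2 ^ k * (m + h)) (2 ^ k * (m + h) + 2 ^ k) =
      (Ico (2 ^ k * m) (2 ^ k * m + 2 ^ k)).map (addRightEmbedding (2 ^ k * h)) := by
    rw [Finset.map_add_right_Ico]
    congr 1 <;> ring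
  rw [this, Finset.sum_map]
  rfl

theorem hs_add {k : ℕ} (hk : 1 ≤ k) (x h : ℤ) : hs k (x + 2 ^ k * h) = hs k x := by
  unfold hs ix
  have e : (2 : ℤ) ^ k = 2 ^ (k - 1) * 2 := by
    rw [← pow_succ]; congr 1; omega
  have h1 : (x + 2 ^ k * h) / 2 ^ (k - 1) = x / 2 ^ (k - 1) + 2 * h := by
    rw [e, mul_assoc, Int.add_mul_ediv_left _ _ (by positivity)]
  rw [h1]
  have h2 : (x / 2 ^ (k - 1) + 2 * h) % 2 = x / 2 ^ (k - 1) % 2 := by omega
  rw [h2]

/-- The companions are invariant under the lattice. -/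
structure Inv (F1 F2 F3 : Pt → ℝ) : Prop where
  i1 : ∀ a b x y z, F1 (x + h0 c a b, y + a, z + b) = F1 (x, y, z)
  i2 : ∀ a b x y z, F2 (x + h0 c a b, y + h1 c a b, z + b) = F2 (x, y, z)
  i3 : ∀ a b x y z, F3 (x + h0 c a b, y + h1 c a b, z + a) = F3 (x, y, z)

theorem h0_mul (t a b : ℤ) : t * h0 c a b = h0 c (t * a) (t * b) := by unfold h0; ring
theorem h1_mul (t a b : ℤ) : t * h1 c a b = h1 c (t * a) (t * b) := by unfold h1; ring

/-- The box of offset `o`, position `w` and free coordinates `a, b`. -/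
def bxm (o w a b : ℤ) : Bx := (o - 2 - w + h0 c a b, w + h1 c a b, a, b)

theorem loc_inv {k : ℕ} (hk : 1 ≤ k) {F1 F2 F3 : Pt → ℝ} (hI : Inv c F1 F2 F3) (A : ℤ → ℝ)
    (o w a b : ℤ) :
    loc k (bxm c o w a b) (fun p => A (lf c p)) F1 F2 F3 =
      loc k (o - 2 - w, w, 0, 0) (fun p => A (lf c p)) F1 F2 F3 := by
  unfold loc bxm
  simp only
  rw [sum_iv_add]
  refine sum_congr rfl fun x0 _ => ?_
  rw [sum_iv_add]
  refine sum_congr rfl fun x1 _ => ?_
  conv_lhs => rw [show a = 0 + a by ring]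
  rw [sum_iv_add]
  refine sum_congr rfl fun x2 _ => ?_
  conv_lhs => rw [show b = 0 + b by ring]
  rw [sum_iv_add]
  refine sum_congr rfl fun x3 _ => ?_
  rw [zero_add, zero_add, hs_add hk, hs_add hk, hs_add hk, hs_add hk]
  congr 1
  unfold prd
  rw [h0_mul, h1_mul, hI.i1, hI.i2, hI.i3]
  have := lf_sh c (2 ^ k * a) (2 ^ k * b) (x1, x2, x3)
  unfold sh at this
  simp only at this ⊢
  rw [this]

theorem loc_congr0 {k : ℕ} {m : Bx} {F0 F0' F1 F2 F3 : Pt → ℝ}
    (h : ∀ p ∈ cb k (rf0 m), F0 p = F0' p) : loc k m F0 F1 F2 F3 = loc k m F0' F1 F2 F3 := by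
  unfold loc prd
  refine sum_congr rfl fun x0 _ => sum_congr rfl fun x1 hx1 => sum_congr rfl fun x2 hx2 =>
    sum_congr rfl fun x3 hx3 => ?_
  rw [h (x1, x2, x3) (by
    unfold cb rf0
    rw [mem_product, mem_product]
    exact ⟨hx1, hx2, hx3⟩)]

theorem loc_sum0 {ι : Type*} (S : Finset ι) (k : ℕ) (m : Bx) (F0 : ι → Pt → ℝ)
    (F1 F2 F3 : Pt → ℝ) :
    loc k m (fun p => ∑ i ∈ S, F0 i p) F1 F2 F3 = ∑ i ∈ S, loc k m (F0 i) F1 F2 F3 := by
  unfold loc prd
  simp only [sum_mul, mul_sum]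
  rw [sum_comm' (s := S) (t := fun _ => iv k m.1) (t' := iv k m.1) (s' := fun _ => S)
    (by intros; tauto)]
  refine sum_congr rfl fun x0 _ => ?_
  rw [sum_comm' (s := S) (t := fun _ => iv k m.2.1) (t' := iv k m.2.1) (s' := fun _ => S)
    (by intros; tauto)]
  refine sum_congr rfl fun x1 _ => ?_
  rw [sum_comm' (s := S) (t := fun _ => iv k m.2.2.1) (t' := iv k m.2.2.1) (s' := fun _ => S)
    (by intros; tauto)]
  refine sum_congr rfl fun x2 _ => ?_
  rw [sum_comm' (s := S) (t := fun _ => iv k m.2.2.2) (t' := iv k m.2.2.2) (s' := fun _ => S)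
    (by intros; tauto)]

end

end Vale.Agent.P141.PL.H560
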