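import Vale.Agent.P141.PL.H560.Transfer
import Vale.Agent.P141.PL.H315.Export

/-!
# Transfer of the cost, role 0: the main inequality
-/

namespace Vale.Agent.P141.PL.H560

open Finset Vale.Agent.P141.PL

noncomputable section

variable (c : LF)

theorem mem_iv_sub {K k : ℕ} (hk : k ≤ K) {M a x : ℤ} (ha : a ∈ iv (K - k) M) (hx : x ∈ iv k a) :
    x ∈ iv K M := by
  rw [mem_iv] at ha hx ⊢
  rw [← ha, ← hx, ix_ix]
  congr 1; omega

/-- The node form as an average over the translated boxes. -/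
theorem node_le {K k : ℕ} (hk : 1 ≤ k) (hkK : k ≤ K) (B : Pt) (φ : Pt → ℝ) (o v : ℤ)
    {F1 F2 F3 : Pt → ℝ} (hI : Inv c F1 F2 F3) :
    (8 ^ k : ℝ)⁻¹ * |loc k (o - 2 - v, v, 0, 0) (fun p => push c K B φ (lf c p)) F1 F2 F3| ≤
      (4 ^ K : ℝ)⁻¹ * ∑ q ∈ T K, (2 ^ k : ℝ)⁻¹ * ∑ ab ∈ iv (K - k) B.2.1 ×ˢ iv (K - k) B.2.2,
        |loc k (bxm c o v ab.1 ab.2) (fun p => cut K B φ (sh c q.1 q.2 p)) F1 F2 F3| := by
  set L : ℝ := |loc k (o - 2 - v, v, 0, 0) (fun p => push c K B φ (lf c p)) F1 F2 F3| with hL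
  have h1 : ∀ ab ∈ iv (K - k) B.2.1 ×ˢ iv (K - k) B.2.2, L ≤ ∑ q ∈ T K,
      |loc k (bxm c o v ab.1 ab.2) (fun p => cut K B φ (sh c q.1 q.2 p)) F1 F2 F3| := by
    intro ab hab
    rw [mem_product] at hab
    rw [hL, ← loc_inv c hk hI _ o v ab.1 ab.2]
    have h2 : loc k (bxm c o v ab.1 ab.2) (fun p => push c K B φ (lf c p)) F1 F2 F3 =
        loc k (bxm c o v ab.1 ab.2) (fun p => ∑ q ∈ T K, cut K B φ (sh c q.1 q.2 p)) F1 F2 F3 := by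
      refine loc_congr0 fun p hp => ?_
      unfold cb rf0 bxm at hp
      rw [mem_product, mem_product] at hp
      exact push_eq c K B φ p (mem_iv_sub hkK hab.1 hp.2.1) (mem_iv_sub hkK hab.2 hp.2.2)
    rw [h2, loc_sum0]
    exact abs_sum_le_sum_abs _ _
  have h3 : ((iv (K - k) B.2.1 ×ˢ iv (K - k) B.2.2).card : ℝ) * L ≤
      ∑ ab ∈ iv (K - k) B.2.1 ×ˢ iv (K - k) B.2.2, ∑ q ∈ T K,
        |loc k (bxm c o v ab.1 ab.2) (fun p => cut K B φ (sh c q.1 q.2 p)) F1 F2 F3| := by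
    rw [← nsmul_eq_mul]
    exact card_nsmul_le_sum _ _ _ h1
  have hc : ((iv (K - k) B.2.1 ×ˢ iv (K - k) B.2.2).card : ℝ) = 4 ^ (K - k) := by
    rw [card_product, card_iv, card_iv]
    push_cast
    rw [← mul_pow]; norm_num
  rw [hc, sum_comm] at h3
  have e8 : (8 : ℝ) ^ k = 4 ^ k * 2 ^ k := by rw [← mul_pow]; norm_num
  have e4 : (4 : ℝ) ^ K = 4 ^ k * 4 ^ (K - k) := by rw [← pow_add]; congr 1; omega
  calc (8 ^ k : ℝ)⁻¹ * L = (4 ^ K : ℝ)⁻¹ * ((2 ^ k : ℝ)⁻¹ * (4 ^ (K - k) * L)) := by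
        rw [e8, e4, mul_inv, mul_inv]
        have : (4 : ℝ) ^ (K - k) ≠ 0 := by positivity
        field_simp
    _ ≤ (4 ^ K : ℝ)⁻¹ * ((2 ^ k : ℝ)⁻¹ * ∑ q ∈ T K, ∑ ab ∈ iv (K - k) B.2.1 ×ˢ iv (K - k) B.2.2,
        |loc k (bxm c o v ab.1 ab.2) (fun p => cut K B φ (sh c q.1 q.2 p)) F1 F2 F3|) := by
        gcongr
    _ = _ := by rw [mul_sum (a := (2 ^ k : ℝ)⁻¹)]

/-- Indices of the boxes of scale `k` over the cube of scale `K` with indices `M`. -/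
def cbs (K : ℕ) (M : Pt) (k : ℕ) : Finset Pt :=
  iv (K - k) M.1 ×ˢ iv (K - k) M.2.1 ×ˢ iv (K - k) M.2.2

/-- The box of offset `o` over the face cube with indices `m`. -/
def bx0 (o : ℤ) (m : Pt) : Bx := (o - 2 - (m.1 + m.2.1 + m.2.2), m)

theorem bxm_eq (o w a b : ℤ) : bxm c o w a b = bx0 o (w + h1 c a b, a, b) := by
  unfold bxm bx0 h0 h1
  ext <;> simp
  ring

theorem loc_eq_zero0 {k : ℕ} {m : Bx} {F0 F1 F2 F3 : Pt → ℝ}
    (h : ∀ p ∈ cb k (rf0 m), F0 p = 0) : loc k m F0 F1 F2 F3 = 0 := by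
  rw [loc_congr0 h]
  unfold loc prd
  simp

/-- The sum over the nodes and the translated boxes is a sum over the boxes over two cubes. -/
theorem sum_nodes_le {K : ℕ} (B : Pt) (φ : Pt → ℝ) (o : ℤ) (F1 F2 F3 : ℕ → Pt → ℝ)
    (S : Finset (ℕ × ℤ)) (hS : ∀ s ∈ S, 1 ≤ s.1 ∧ s.1 ≤ K) (q : ℤ × ℤ) :
    ∑ s ∈ S, (2 ^ s.1 : ℝ)⁻¹ * ∑ ab ∈ iv (K - s.1) B.2.1 ×ˢ iv (K - s.1) B.2.2,
        |loc s.1 (bxm c o s.2 ab.1 ab.2) (fun p => cut K B φ (sh c q.1 q.2 p))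
          (F1 s.1) (F2 s.1) (F3 s.1)| ≤
      ∑ t ∈ {ix K (2 ^ K * B.1 - h1 c q.1 q.2), ix K (2 ^ K * B.1 - h1 c q.1 q.2) + 1},
        ∑ k ∈ Icc 1 K, (2 ^ k : ℝ)⁻¹ * ∑ m ∈ cbs K (t, B.2.1, B.2.2) k,
          |loc k (bx0 o m) (fun p => cut K B φ (sh c q.1 q.2 p)) (F1 k) (F2 k) (F3 k)| := by
  classical
  set t0 : ℤ := ix K (2 ^ K * B.1 - h1 c q.1 q.2) with ht0
  set g : ℕ → Pt → ℝ := fun k m =>
    |loc k (bx0 o m) (fun p => cut K B φ (sh c q.1 q.2 p)) (F1 k) (F2 k) (F3 k)| with hg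
  have hg0 : ∀ k m, 0 ≤ g k m := fun k m => abs_nonneg _
  have hmap : ∀ s ∈ S, s.1 ∈ Icc 1 K := fun s hs => mem_Icc.mpr (hS s hs)
  rw [← sum_fiberwise_of_maps_to hmap, sum_comm (s := ({t0, t0 + 1} : Finset ℤ))]
  refine sum_le_sum fun k hk => ?_
  rw [mem_Icc] at hk
  set I2 := iv (K - k) B.2.1 ×ˢ iv (K - k) B.2.2 with hI2
  have e1 : ∑ s ∈ S with s.1 = k, (2 ^ s.1 : ℝ)⁻¹ *
        ∑ ab ∈ iv (K - s.1) B.2.1 ×ˢ iv (K - s.1) B.2.2,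
          |loc s.1 (bxm c o s.2 ab.1 ab.2) (fun p => cut K B φ (sh c q.1 q.2 p))
            (F1 s.1) (F2 s.1) (F3 s.1)| =
      (2 ^ k : ℝ)⁻¹ * ∑ x ∈ (S.filter (fun s => s.1 = k)) ×ˢ I2,
        g k (x.1.2 + h1 c x.2.1 x.2.2, x.2.1, x.2.2) := by
    rw [sum_product, mul_sum]
    refine sum_congr rfl fun s hs => ?_
    rw [mem_filter] at hs
    rw [hs.2]
    congr 1
    refine sum_congr rfl fun ab _ => ?_
    simp only [hg]
    rw [bxm_eq]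
  have e2 : ∑ t ∈ ({t0, t0 + 1} : Finset ℤ), (2 ^ k : ℝ)⁻¹ *
        ∑ m ∈ cbs K (t, B.2.1, B.2.2) k, g k m =
      (2 ^ k : ℝ)⁻¹ * ∑ t ∈ ({t0, t0 + 1} : Finset ℤ), ∑ m ∈ cbs K (t, B.2.1, B.2.2) k, g k m := by
    rw [mul_sum]
  rw [e1]
  refine le_trans ?_ (le_of_eq e2.symm)
  refine mul_le_mul_of_nonneg_left ?_ (by positivity)
  set ψ : (ℕ × ℤ) × (ℤ × ℤ) → Pt := fun x => (x.1.2 + h1 c x.2.1 x.2.2, x.2.1, x.2.2) with hψ
  have hinj : Set.InjOn ψ ((S.filter (fun s => s.1 = k)) ×ˢ I2 : Finset _) := by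
    intro x hx y hy hxy
    rw [mem_coe, mem_product, mem_filter] at hx hy
    simp only [hψ, Prod.mk.injEq] at hxy
    obtain ⟨a1, a2, a3⟩ := hxy
    have e : x.2 = y.2 := Prod.ext a2 a3
    rw [a2, a3] at a1
    have a4 : x.1.2 = y.1.2 := by linarith
    exact Prod.ext (Prod.ext (hx.1.2.trans hy.1.2.symm) a4) e
  have e3 : ∑ x ∈ (S.filter (fun s => s.1 = k)) ×ˢ I2,
        g k (x.1.2 + h1 c x.2.1 x.2.2, x.2.1, x.2.2) =
      ∑ m ∈ ((S.filter (fun s => s.1 = k)) ×ˢ I2).image ψ, g k m :=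
    (sum_image hinj).symm
  rw [e3]
  set U : Finset Pt := cbs K (t0, B.2.1, B.2.2) k ∪ cbs K (t0 + 1, B.2.1, B.2.2) k with hU
  have e4 : ∑ m ∈ ((S.filter (fun s => s.1 = k)) ×ˢ I2).image ψ, g k m ≤ ∑ m ∈ U, g k m := by
    rw [← sum_filter_ne_zero]
    refine sum_le_sum_of_subset_of_nonneg ?_ fun m _ _ => hg0 k m
    intro m hm
    rw [mem_filter, mem_image] at hm
    obtain ⟨⟨x, hx, rfl⟩, hne⟩ := hm
    rw [mem_product, mem_filter, hI2, mem_product] at hx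
    have hex : ∃ p ∈ cb k (rf0 (bx0 o (ψ x))), cut K B φ (sh c q.1 q.2 p) ≠ 0 := by
      by_contra hcon
      push Not at hcon
      apply hne
      simp only [hg]
      rw [loc_eq_zero0 hcon, abs_zero]
    obtain ⟨p, hp, hp0⟩ := hex
    have hmem : sh c q.1 q.2 p ∈ cb K B := by
      by_contra hh
      exact hp0 (cut_of_not_mem hh)
    unfold cb at hmem hp
    rw [mem_product, mem_product] at hmem hp
    have b1 := mem_iv_bounds hmem.1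
    simp only [sh] at b1
    have p1 : p.1 ∈ iv k (ψ x).1 := hp.1
    have hmid : (ψ x).1 ∈ iv (K - k) (ix K p.1) := by
      rw [mem_iv] at p1 ⊢
      rw [← p1, ix_ix]
      congr 1; omega
    have hix : ix K p.1 = t0 ∨ ix K p.1 = t0 + 1 := by
      have h2 : (0 : ℤ) < 2 ^ K := by positivity
      have ha := mem_iv_bounds (self_mem_iv K p.1)
      have hb := mem_iv_bounds (self_mem_iv K (2 ^ K * B.1 - h1 c q.1 q.2))
      rw [← ht0] at hb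
      have c1 : 2 ^ K * t0 < 2 ^ K * ix K p.1 + 2 ^ K := by linarith
      have c2 : 2 ^ K * ix K p.1 < 2 ^ K * t0 + 2 ^ K + 2 ^ K := by linarith
      have c1' : t0 < ix K p.1 + 1 := by
        have : 2 ^ K * t0 < 2 ^ K * (ix K p.1 + 1) := by linarith
        exact lt_of_mul_lt_mul_left this h2.le
      have c2' : ix K p.1 < t0 + 2 := by
        have : 2 ^ K * ix K p.1 < 2 ^ K * (t0 + 2) := by linarith
        exact lt_of_mul_lt_mul_left this h2.le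
      omega
    rw [hU, mem_union]
    unfold cbs
    simp only [mem_product]
    rcases hix with h | h
    · left; rw [h] at hmid; exact ⟨hmid, hx.2.1, hx.2.2⟩
    · right; rw [h] at hmid; exact ⟨hmid, hx.2.1, hx.2.2⟩
  refine e4.trans ?_
  have hne : t0 ≠ t0 + 1 := by omega
  rw [sum_pair hne]
  have h5 := sum_union_inter (s₁ := cbs K (t0, B.2.1, B.2.2) k)
    (s₂ := cbs K (t0 + 1, B.2.1, B.2.2) k) (f := g k)
  have h6 : 0 ≤ ∑ m ∈ cbs K (t0, B.2.1, B.2.2) k ∩ cbs K (t0 + 1, B.2.1, B.2.2) k, g k m :=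
    sum_nonneg fun m _ => hg0 k m
  rw [hU]
  linarith

/-- **Transfer, general form**: the sum over the nodes is at most `8` times the largest cost of a
translated and cut function on a cube of scale `K`. -/
theorem transfer_gen {K : ℕ} (B : Pt) (φ : Pt → ℝ) (o : ℤ) (F1 F2 F3 : ℕ → Pt → ℝ)
    (hI : ∀ k, Inv c (F1 k) (F2 k) (F3 k))
    (S : Finset (ℕ × ℤ)) (hS : ∀ s ∈ S, 1 ≤ s.1 ∧ s.1 ≤ K) {X : ℝ}
    (hX : ∀ q ∈ T K, ∀ t : ℤ, ∑ k ∈ Icc 1 K, (2 ^ k : ℝ)⁻¹ * ∑ m ∈ cbs K (t, B.2.1, B.2.2) k,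
      |loc k (bx0 o m) (fun p => cut K B φ (sh c q.1 q.2 p)) (F1 k) (F2 k) (F3 k)| ≤ X) :
    ∑ s ∈ S, (8 ^ s.1 : ℝ)⁻¹ * |loc s.1 (o - 2 - s.2, s.2, 0, 0)
      (fun p => push c K B φ (lf c p)) (F1 s.1) (F2 s.1) (F3 s.1)| ≤ 8 * X := by
  have hT0 : (0, 0) ∈ T K := by
    unfold T
    rw [mem_product, mem_Ioo]
    have : (0 : ℤ) < 2 ^ K := by positivity
    constructor <;> constructor <;> simp
  have hX0 : 0 ≤ X := le_trans (by positivity) (hX (0, 0) hT0 0)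
  calc ∑ s ∈ S, (8 ^ s.1 : ℝ)⁻¹ * |loc s.1 (o - 2 - s.2, s.2, 0, 0)
        (fun p => push c K B φ (lf c p)) (F1 s.1) (F2 s.1) (F3 s.1)|
      ≤ ∑ s ∈ S, (4 ^ K : ℝ)⁻¹ * ∑ q ∈ T K, (2 ^ s.1 : ℝ)⁻¹ *
        ∑ ab ∈ iv (K - s.1) B.2.1 ×ˢ iv (K - s.1) B.2.2,
          |loc s.1 (bxm c o s.2 ab.1 ab.2) (fun p => cut K B φ (sh c q.1 q.2 p))
            (F1 s.1) (F2 s.1) (F3 s.1)| :=
        sum_le_sum fun s hs => node_le c (hS s hs).1 (hS s hs).2 B φ o s.2 (hI s.1)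
    _ = (4 ^ K : ℝ)⁻¹ * ∑ q ∈ T K, ∑ s ∈ S, (2 ^ s.1 : ℝ)⁻¹ *
        ∑ ab ∈ iv (K - s.1) B.2.1 ×ˢ iv (K - s.1) B.2.2,
          |loc s.1 (bxm c o s.2 ab.1 ab.2) (fun p => cut K B φ (sh c q.1 q.2 p))
            (F1 s.1) (F2 s.1) (F3 s.1)| := by
        rw [← mul_sum, sum_comm]
    _ ≤ (4 ^ K : ℝ)⁻¹ * ∑ q ∈ T K, 2 * X := by
        refine mul_le_mul_of_nonneg_left (sum_le_sum fun q hq => ?_) (by positivity)
        refine (sum_nodes_le c B φ o F1 F2 F3 S hS q).trans ?_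
        have hne : ix K (2 ^ K * B.1 - h1 c q.1 q.2) ≠ ix K (2 ^ K * B.1 - h1 c q.1 q.2) + 1 := by
          omega
        rw [sum_pair hne]
        have a1 := hX q hq (ix K (2 ^ K * B.1 - h1 c q.1 q.2))
        have a2 := hX q hq (ix K (2 ^ K * B.1 - h1 c q.1 q.2) + 1)
        linarith
    _ = (4 ^ K : ℝ)⁻¹ * (T K).card * (2 * X) := by
        rw [sum_const, nsmul_eq_mul]; ring
    _ ≤ (4 ^ K : ℝ)⁻¹ * (4 * 4 ^ K) * (2 * X) := by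
        gcongr
        exact card_T_le K
    _ = 8 * X := by
        have : (4 : ℝ) ^ K ≠ 0 := by positivity
        field_simp
        ring

end

end Vale.Agent.P141.PL.H560
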