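import Vale.Agent.P141.PL.H560.Transfer2
import Vale.Agent.P141.PL.Defs1

/-!
# Transfer of the cost, role 0: product functions and their weights
-/

namespace Vale.Agent.P141.PL.H560

open Finset Vale.Agent.P141.PL

noncomputable section

/-- A function of two variables, translated and cut. -/
def cs (Q : Finset (ℤ × ℤ)) (h : ℤ × ℤ) (u : ℤ × ℤ → ℝ) (w : ℤ × ℤ) : ℝ := by
  classical exact if (w.1 + h.1, w.2 + h.2) ∈ Q then u (w.1 + h.1, w.2 + h.2) else 0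

theorem cs_of_mem {Q : Finset (ℤ × ℤ)} {h : ℤ × ℤ} {u : ℤ × ℤ → ℝ} {w : ℤ × ℤ}
    (hw : (w.1 + h.1, w.2 + h.2) ∈ Q) : cs Q h u w = u (w.1 + h.1, w.2 + h.2) := by
  unfold cs; rw [if_pos hw]

theorem cs_of_not_mem {Q : Finset (ℤ × ℤ)} {h : ℤ × ℤ} {u : ℤ × ℤ → ℝ} {w : ℤ × ℤ}
    (hw : (w.1 + h.1, w.2 + h.2) ∉ Q) : cs Q h u w = 0 := by
  unfold cs; rw [if_neg hw]

/-- The weight norm does not increase. -/
theorem Nm_cs_le {e : ℝ} (h0 : 0 ≤ e) (h1 : e ≤ 1) {Q Q' : Finset (ℤ × ℤ)}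
    (hc : Q'.card = Q.card) (h : ℤ × ℤ) (u : ℤ × ℤ → ℝ) :
    H315.Nm e Q' (cs Q h u) ≤ H315.Nm e Q u := by
  classical
  unfold H315.Nm
  have hav : H315.avg Q' (fun x => cs Q h u x ^ 2) ≤ H315.avg Q (fun x => u x ^ 2) := by
    unfold H315.avg
    rw [hc]
    refine mul_le_mul_of_nonneg_left ?_ (by positivity)
    set τ : ℤ × ℤ → ℤ × ℤ := fun w => (w.1 + h.1, w.2 + h.2) with hτ
    have e1 : ∑ x ∈ Q', cs Q h u x ^ 2 = ∑ x ∈ Q'.filter (fun x => τ x ∈ Q), u (τ x) ^ 2 := by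
      rw [sum_filter]
      refine sum_congr rfl fun x _ => ?_
      split_ifs with hx
      · rw [cs_of_mem hx]
      · rw [cs_of_not_mem hx]; norm_num
    rw [e1]
    have hinj : Set.InjOn τ (Q'.filter (fun x => τ x ∈ Q) : Finset _) := by
      intro x _ y _ hxy
      simp only [hτ, Prod.mk.injEq, add_left_inj] at hxy
      exact Prod.ext hxy.1 hxy.2
    rw [← sum_image (f := fun y => u y ^ 2) hinj]
    refine sum_le_sum_of_subset_of_nonneg ?_ fun _ _ _ => sq_nonneg _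
    intro y hy
    rw [mem_image] at hy
    obtain ⟨x, hx, rfl⟩ := hy
    exact (mem_filter.mp hx).2
  have hmx : H315.mx Q' (cs Q h u) ≤ H315.mx Q u := by
    refine H315.mx_le (H315.mx_nonneg _ _) fun x _ => ?_
    by_cases hx : (x.1 + h.1, x.2 + h.2) ∈ Q
    · rw [cs_of_mem hx]; exact H315.abs_le_mx hx u
    · rw [cs_of_not_mem hx, abs_zero]; exact H315.mx_nonneg _ _
  refine mul_le_mul ?_ ?_ (Real.rpow_nonneg (H315.mx_nonneg _ _) _)
    (Real.rpow_nonneg (H315.avg_nonneg fun _ _ => sq_nonneg _) _)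
  · exact Real.rpow_le_rpow (H315.avg_nonneg fun _ _ => sq_nonneg _) hav (by linarith)
  · exact Real.rpow_le_rpow (H315.mx_nonneg _ _) hmx h0

theorem cube3_eq (K : ℕ) (x : Pt) : H315.cube3 K x = cb K (cx K x) := rfl

theorem iv_eq (K : ℕ) (x : ℤ) : H315.iv K x = iv K (ix K x) := rfl

variable (c : LF)

/-- The translated and cut product function. -/
def uq (K : ℕ) (B : Pt) (u : H315.Tri) (q : ℤ × ℤ) : H315.Tri :=
  (cs (iv K B.1 ×ˢ iv K B.2.1) (h1 c q.1 q.2, q.1) u.1,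
    cs (iv K B.1 ×ˢ iv K B.2.2) (h1 c q.1 q.2, q.2) u.2.1,
    cs (iv K B.2.1 ×ˢ iv K B.2.2) (q.1, q.2) u.2.2)

theorem cut_atm (K : ℕ) (B : Pt) (u : H315.Tri) (q : ℤ × ℤ) (p : Pt) :
    cut K B (H315.atm u) (sh c q.1 q.2 p) = H315.atm (uq c K B u q) p := by
  unfold H315.atm H315.e12 H315.e13 H315.e23 uq
  simp only
  by_cases h : sh c q.1 q.2 p ∈ cb K B
  · rw [cut_of_mem h]
    unfold cb sh at h
    rw [mem_product, mem_product] at h
    simp only at h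
    have g1 : ((p.1, p.2.1).1 + (h1 c q.1 q.2, q.1).1, (p.1, p.2.1).2 + (h1 c q.1 q.2, q.1).2) ∈
        iv K B.1 ×ˢ iv K B.2.1 := mem_product.mpr ⟨h.1, h.2.1⟩
    have g2 : ((p.1, p.2.2).1 + (h1 c q.1 q.2, q.2).1, (p.1, p.2.2).2 + (h1 c q.1 q.2, q.2).2) ∈
        iv K B.1 ×ˢ iv K B.2.2 := mem_product.mpr ⟨h.1, h.2.2⟩
    have g3 : ((p.2.1, p.2.2).1 + (q.1, q.2).1, (p.2.1, p.2.2).2 + (q.1, q.2).2) ∈
        iv K B.2.1 ×ˢ iv K B.2.2 := mem_product.mpr ⟨h.2.1, h.2.2⟩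
    rw [cs_of_mem g1, cs_of_mem g2, cs_of_mem g3]
    rfl
  · rw [cut_of_not_mem h]
    unfold cb sh at h
    rw [mem_product, mem_product] at h
    simp only at h
    by_cases a1 : p.1 + h1 c q.1 q.2 ∈ iv K B.1
    · by_cases a2 : p.2.1 + q.1 ∈ iv K B.2.1
      · have a3 : p.2.2 + q.2 ∉ iv K B.2.2 := fun hh => h ⟨a1, a2, hh⟩
        rw [cs_of_not_mem (Q := iv K B.1 ×ˢ iv K B.2.2)]
        · ring
        · intro hh
          rw [mem_product] at hh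
          exact a3 hh.2
      · rw [cs_of_not_mem (Q := iv K B.1 ×ˢ iv K B.2.1)]
        · ring
        · intro hh
          rw [mem_product] at hh
          exact a2 hh.2
    · rw [cs_of_not_mem (Q := iv K B.1 ×ˢ iv K B.2.1)]
      · ring
      · intro hh
        rw [mem_product] at hh
        exact a1 hh.1

theorem wt_uq_le {δ e : ℝ} (hδ : 0 ≤ δ) (h0 : 0 ≤ e) (h1' : e ≤ 1) (K : ℕ) (x y : Pt)
    (u : H315.Tri) (q : ℤ × ℤ) :
    H315.wt δ e (H315.cube3 K y) (uq c K (cx K x) u q) ≤ H315.wt δ e (H315.cube3 K x) u := by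
  unfold H315.wt
  rw [H315.card_cube3, H315.card_cube3, H315.Nm_e12, H315.Nm_e12, H315.Nm_e13, H315.Nm_e13,
    H315.Nm_e23, H315.Nm_e23]
  have hcard : ∀ s t s' t' : ℤ, (H315.iv K s ×ˢ H315.iv K t).card =
      (iv K (ix K s') ×ˢ iv K (ix K t')).card := by
    intro s t s' t'
    rw [card_product, card_product, H315.card_iv, H315.card_iv, card_iv, card_iv]
  refine mul_le_mul_of_nonneg_left ?_ (by positivity)
  have n1 := H315.Nm_nonneg e (H315.iv K y.1 ×ˢ H315.iv K y.2.1) (uq c K (cx K x) u q).1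
  have n2 := H315.Nm_nonneg e (H315.iv K y.1 ×ˢ H315.iv K y.2.2) (uq c K (cx K x) u q).2.1
  have n3 := H315.Nm_nonneg e (H315.iv K y.2.1 ×ˢ H315.iv K y.2.2) (uq c K (cx K x) u q).2.2
  have m1 := H315.Nm_nonneg e (H315.iv K x.1 ×ˢ H315.iv K x.2.1) u.1
  have m2 := H315.Nm_nonneg e (H315.iv K x.1 ×ˢ H315.iv K x.2.2) u.2.1
  refine mul_le_mul (mul_le_mul ?_ ?_ n2 m1) ?_ n3 (mul_nonneg m1 m2)
  · exact Nm_cs_le h0 h1' (hcard _ _ _ _) _ _
  · exact Nm_cs_le h0 h1' (hcard _ _ _ _) _ _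
  · exact Nm_cs_le h0 h1' (hcard _ _ _ _) _ _

/-- The cost hypothesis of role `0` at the scale `K`, for the companions `F1 F2 F3`. -/
def CostAt (o : ℤ) (K : ℕ) (δ e P : ℝ) (F1 F2 F3 : ℕ → Pt → ℝ) : Prop :=
  ∀ (x : Pt) (u : H315.Tri), ∑ k ∈ Icc 1 K, (2 ^ k : ℝ)⁻¹ * ∑ m ∈ cbs K (cx K x) k,
    |loc k (bx0 o m) (H315.atm u) (F1 k) (F2 k) (F3 k)| ≤ P * H315.wt δ e (H315.cube3 K x) u

/-- The push-forward of an atom under the linear form with coefficients `d`. -/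
def pf (d : Pt) (K : ℕ) (p : Pt) (u : H315.Tri) (s : ℤ) : ℝ :=
  ∑ y ∈ H315.cube3 K p, if el d y = s then H315.atm u y else 0

theorem pf_eq_push (K : ℕ) (p : Pt) (u : H315.Tri) :
    pf (c.e, c.d2, c.d3) K p u = push c K (cx K p) (H315.atm u) := rfl

/-- **Transfer, role 0.** -/
theorem transfer0 {K : ℕ} {o : ℤ} {δ e P : ℝ} (hδ : 0 ≤ δ) (h0 : 0 ≤ e) (h1' : e ≤ 1)
    (hP : 0 ≤ P) {F1 F2 F3 : ℕ → Pt → ℝ} (hI : ∀ k, Inv c (F1 k) (F2 k) (F3 k))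
    (hcost : CostAt o K δ e P F1 F2 F3) (p : Pt) (u : H315.Tri)
    (S : Finset (ℕ × ℤ)) (hS : ∀ s ∈ S, 1 ≤ s.1 ∧ s.1 ≤ K) :
    ∑ s ∈ S, (8 ^ s.1 : ℝ)⁻¹ * |loc s.1 (o - 2 - s.2, s.2, 0, 0)
      (fun y => pf (c.e, c.d2, c.d3) K p u (lf c y)) (F1 s.1) (F2 s.1) (F3 s.1)| ≤
      8 * (P * H315.wt δ e (H315.cube3 K p) u) := by
  rw [pf_eq_push]
  refine transfer_gen c (cx K p) (H315.atm u) o F1 F2 F3 hI S hS fun q _ t => ?_
  have hx : cx K ((2 ^ K * t, p.2.1, p.2.2) : Pt) = (t, (cx K p).2.1, (cx K p).2.2) := by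
    unfold cx ix
    simp only
    rw [Int.mul_ediv_cancel_left _ (by positivity)]
  have h := hcost (2 ^ K * t, p.2.1, p.2.2) (uq c K (cx K p) u q)
  rw [hx] at h
  have h2 : (fun y => cut K (cx K p) (H315.atm u) (sh c q.1 q.2 y)) =
      H315.atm (uq c K (cx K p) u q) := funext fun y => cut_atm c K (cx K p) u q y
  rw [h2]
  exact h.trans (mul_le_mul_of_nonneg_left (wt_uq_le c hδ h0 h1' K p _ u q) hP)

/-- **Transfer, role 0**, nodes in a permuted position. -/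
theorem transfer0' {K : ℕ} {o : ℤ} {δ e P : ℝ} (hδ : 0 ≤ δ) (h0 : 0 ≤ e) (h1' : e ≤ 1)
    (hP : 0 ≤ P) {F1 F2 F3 : ℕ → Pt → ℝ} (hI : ∀ k, Inv c (F1 k) (F2 k) (F3 k))
    (hcost : CostAt o K δ e P F1 F2 F3) (p : Pt) (u : H315.Tri)
    (S : Finset (ℕ × ℤ)) (hS : ∀ s ∈ S, 1 ≤ s.1 ∧ s.1 ≤ K)
    (w a b : ℤ → ℤ) (hw : Function.Injective w) (bx : ℤ → Bx)
    (hbx : ∀ v, bx v = bxm c o (w v) (a v) (b v)) :
    ∑ s ∈ S, (8 ^ s.1 : ℝ)⁻¹ * |loc s.1 (bx s.2)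
      (fun y => pf (c.e, c.d2, c.d3) K p u (lf c y)) (F1 s.1) (F2 s.1) (F3 s.1)| ≤
      8 * (P * H315.wt δ e (H315.cube3 K p) u) := by
  classical
  have key := transfer0 c hδ h0 h1' hP hI hcost p u (S.image fun s => (s.1, w s.2)) (by
    intro s hs
    rw [mem_image] at hs
    obtain ⟨s', hs', rfl⟩ := hs
    exact hS s' hs')
  rw [sum_image (by
    intro s _ s' _ h
    simp only [Prod.mk.injEq] at h
    exact Prod.ext h.1 (hw h.2))] at key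
  refine le_trans (le_of_eq (sum_congr rfl fun s hs => ?_)) key
  simp only
  rw [hbx, pf_eq_push, loc_inv c (hS s hs).1 (hI s.1)]

end

end Vale.Agent.P141.PL.H560
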